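import Vale.Agent.P181.RH.UDefs
import Vale.Agent.P181.RH.H410.Fin
import Vale.Agent.P181.RV.H627.UDefs

set_option autoImplicit false

/-!
# P181, RHU: `NearA` from `CoreRHU` and `CorVU`

For every partition: `C b log (2 + log a) ≤ (b - a) log (D_2 / a)` implies the inequality.
-/

namespace Vale.Agent.P181.RH.H233

open Vale.Agent.P181
open Vale.Agent.P181.RH
open Vale.Agent.P181.H280 (plethMult)
open Vale.Agent.P181.T4 (ex)
open Vale.Agent.P181.PL
open Vale.Agent.P181.DX.H556 (UniY FatLog)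
open Vale.Agent.P181.RH.H410 (fat pick cores)

/-- **[NEARA]** -/
theorem nearA (hC : CoreRHU) (hA : RV.CorVU) (hY : UniY) (hF : FatLog) (hP : PolyS) :
    NearA := by
  obtain ⟨a₁, hA⟩ := hA
  obtain ⟨C1, c1, hC1, hP⟩ := hP
  obtain ⟨C2, c2, hC2, hY⟩ := hY
  obtain ⟨C3, c3, hC3, hF⟩ := hF
  obtain ⟨s, hs⟩ : ∃ s : ℕ, 100 + C1 + C2 + C3 + a₁ ≤ s :=
    ⟨⌈100 + C1 + C2 + C3 + a₁⌉₊, Nat.le_ceil _⟩
  have ha₁p : (0 : ℝ) ≤ a₁ := Nat.cast_nonneg _
  have hs2 : (s : ℝ) ≤ 2 ^ s := by
    exact_mod_cast (Nat.lt_two_pow_self (n := s)).le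
  obtain ⟨c4, hc4⟩ : ∃ c4, c4 = c1 + c2 + c3 + 1 := ⟨_, rfl⟩
  obtain ⟨B, hB⟩ : ∃ B : ℝ, B = C1 * (a₁ + 1 : ℕ) * (1 + Real.log (a₁ + 1 : ℕ)) ^ c1 := ⟨_, rfl⟩
  have hl1 : (0 : ℝ) ≤ Real.log (a₁ + 1 : ℕ) := Real.log_natCast_nonneg _
  have hB0 : 0 ≤ B := by rw [hB]; positivity
  obtain ⟨C, hCd⟩ : ∃ C : ℝ, C = 2434 * ((s : ℝ) + c4) + 2 * B := ⟨_, rfl⟩
  have hsp : (0 : ℝ) ≤ s := Nat.cast_nonneg _
  have hs100 : (100 : ℝ) ≤ s := by linarith
  have hc4p : (0 : ℝ) ≤ c4 := Nat.cast_nonneg _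
  have hC0 : 0 < C := by rw [hCd]; linarith
  refine ⟨C, hC0, ?_⟩
  intro a b hab n lam hlam
  obtain ⟨L, hLd⟩ : ∃ L : ℝ, L = 1 + Real.log a := ⟨_, rfl⟩
  have hL1 : 1 ≤ L := by rw [hLd]; linarith [Real.log_natCast_nonneg a]
  have hL0 : 0 < L := by linarith
  have hLp : ∀ i j : ℕ, i ≤ j → L ^ i ≤ L ^ j := fun i j h => pow_le_pow_right₀ hL1 h
  obtain ⟨M, hMd⟩ : ∃ M : ℝ, M = 2 + Real.log a := ⟨_, rfl⟩
  have hM2 : 2 ≤ M := by rw [hMd]; linarith [Real.log_natCast_nonneg a]
  have hLM : L ≤ M := by rw [hLd, hMd]; linarith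
  have hM0 : 0 < M := by linarith
  obtain ⟨l, hl⟩ : ∃ l : ℝ, l = Real.log M := ⟨_, rfl⟩
  have hl2 : 1 / 2 ≤ l := by
    have h1 : Real.log 2 ≤ l := by rw [hl]; exact Real.log_le_log (by norm_num) hM2
    have h2 := Real.log_two_gt_d9
    linarith
  have hl0 : 0 < l := by linarith
  rw [← hMd, ← hl] at hlam
  have hap0 : (0 : ℝ) ≤ a := Nat.cast_nonneg _
  have hbp0 : (0 : ℝ) ≤ b := Nat.cast_nonneg _
  rcases Nat.eq_zero_or_pos a with h0 | h0
  · -- `a = 0`
    have h1 : C * b * l ≤ 0 := by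
      rw [h0] at hlam
      simpa using hlam
    have h2 : (b : ℝ) ≤ 0 := by
      by_contra hcon
      rw [not_le] at hcon
      have : 0 < C * b * l := by positivity
      linarith
    have h3 : b = 0 := by
      have : b ≤ 0 := by exact_mod_cast h2
      omega
    rw [h0, h3]
  have hap : (0 : ℝ) < a := by exact_mod_cast h0
  have hb0 : 0 < b := by omega
  have hbp : (0 : ℝ) < b := by exact_mod_cast hb0
  have habR : (a : ℝ) ≤ b := by exact_mod_cast hab
  have key : ∀ mu : Fin a → ℕ, Antitone mu → ∑ i, mu i = a * b →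
      C * b * l ≤ ((b : ℝ) - a) * Real.log ((dn mu 2 : ℝ) / a) →
      plethMult a b a mu ≤ plethMult b a a mu := by
    intro mu hanti hsum hmu
    obtain ⟨D, hD⟩ : ∃ D : ℝ, D = (dn mu 2 : ℝ) := ⟨_, rfl⟩
    rw [← hD] at hmu
    obtain ⟨z, hz⟩ : ∃ z : ℝ, z = Real.log (D / a) := ⟨_, rfl⟩
    rw [← hz] at hmu
    have hDle : D ≤ a * b := by
      have h1 : dn mu 2 ≤ a * b := by
        rw [← hsum]
        unfold dn
        apply Finset.sum_le_sum
        intro i _
        split_ifs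
        · exact le_rfl
        · exact Nat.zero_le _
      rw [hD]
      exact_mod_cast h1
    have hD0 : 0 ≤ D := by rw [hD]; exact Nat.cast_nonneg _
    have hba0 : 0 ≤ (b : ℝ) - a := by linarith
    have hpos : 0 < C * b * l := by positivity
    have hz0 : 0 < z := by
      by_contra hcon
      rw [not_lt] at hcon
      have := mul_nonneg hba0 (neg_nonneg.2 hcon)
      linarith
    have hba1 : 0 < (b : ℝ) - a := by
      rcases hba0.lt_or_eq with h | h
      · exact h
      · rw [← h, zero_mul] at hmu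
        linarith
    have hDa : 0 < D / a := by
      rcases (div_nonneg hD0 hap0).lt_or_eq with h | h
      · exact h
      · rw [hz, ← h, Real.log_zero] at hz0
        exact absurd hz0 (lt_irrefl _)
    have hDp : 0 < D := by
      rcases hD0.lt_or_eq with h | h
      · exact h
      · rw [← h, zero_div] at hDa
        exact absurd hDa (lt_irrefl _)
    have hDb : D / a ≤ b := by
      rw [div_le_iff₀ hap]
      linarith
    have hzb : z ≤ b := by
      have h1 : z ≤ Real.log b := by rw [hz]; exact Real.log_le_log hDa hDb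
      have h2 := Real.log_le_sub_one_of_pos hbp
      linarith
    have hCl : C * l ≤ z := by
      have h1 : ((b : ℝ) - a) * z ≤ b * z := mul_le_mul_of_nonneg_right (by linarith) hz0.le
      have h2 : b * (C * l) ≤ b * z := by linarith
      exact le_of_mul_le_mul_left h2 hbp
    rcases Nat.lt_or_ge a (a₁ + 1) with hsm | hbig
    · -- small `a`
      refine hP a b ?_ a mu
      have h1 : 2 * B ≤ C := by rw [hCd]; linarith
      have h2 : B ≤ b := by
        have h3 : C * (1 / 2) ≤ C * l := mul_le_mul_of_nonneg_left hl2 hC0.le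
        linarith
      refine le_trans ?_ h2
      rw [hB]
      have haa : (a : ℝ) ≤ (a₁ + 1 : ℕ) := by exact_mod_cast hsm.le
      have h4 : Real.log a ≤ Real.log (a₁ + 1 : ℕ) := Real.log_le_log hap haa
      have h5 : (1 + Real.log a) ^ c1 ≤ (1 + Real.log (a₁ + 1 : ℕ)) ^ c1 :=
        pow_le_pow_left₀ (by rw [← hLd]; linarith) (by linarith) c1
      exact mul_le_mul (mul_le_mul_of_nonneg_left haa hC1.le) h5 (by rw [← hLd]; positivity)
        (by positivity)
    -- large `a`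
    obtain ⟨T, hT⟩ : ∃ T : ℝ, T = 2 ^ s * L ^ c4 := ⟨_, rfl⟩
    have h2s0 : (0 : ℝ) < 2 ^ s := by positivity
    have hTC : (s : ℝ) ≤ T := by
      rw [hT]
      exact hs2.trans (le_mul_of_one_le_right h2s0.le (one_le_pow₀ hL1))
    have hT17 : 17 ≤ T := by linarith
    have hT0 : 0 < T := by linarith
    have hT1 : (1 : ℝ) ≤ T := by linarith
    have hTp : ∀ i j : ℕ, i ≤ j → T ^ i ≤ T ^ j := fun i j h => pow_le_pow_right₀ hT1 h
    have hT1c : ∀ (C : ℝ) (c : ℕ), 0 ≤ C → C ≤ s → c ≤ c4 → C * L ^ c ≤ T := by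
      intro C c h0 h1 h2
      rw [hT]
      exact mul_le_mul (h1.trans hs2) (hLp _ _ h2) (by positivity) (by positivity)
    have t1 : C1 * L ^ c1 ≤ T := hT1c _ _ hC1.le (by linarith) (by omega)
    have t2 : C2 * L ^ c2 ≤ T := hT1c _ _ (by linarith) (by linarith) (by omega)
    have t3 : C3 * L ^ (c3 + 1) ≤ T := hT1c _ _ hC3.le (by linarith) (by omega)
    have hlT : Real.log T ≤ ((s : ℝ) + c4) * l := by
      have h1 : T ≤ M ^ (s + c4) := by
        rw [hT, pow_add]
        exact mul_le_mul (pow_le_pow_left₀ (by norm_num) hM2 s)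
          (pow_le_pow_left₀ hL0.le hLM c4) (by positivity) (by positivity)
      have h2 := Real.log_le_log hT0 h1
      rw [Real.log_pow, ← hl] at h2
      push_cast at h2
      exact h2
    have hlT1 : 1 ≤ Real.log T := by
      rw [Real.le_log_iff_exp_le hT0]
      have := Real.exp_one_lt_d9
      linarith
    by_cases q1 : C1 * a * (1 + Real.log a) ^ c1 ≤ b
    · exact hP a b q1 a mu
    rw [not_le, ← hLd] at q1
    have hba : (b : ℝ) ≤ T * a := by
      calc (b : ℝ) ≤ C1 * a * L ^ c1 := q1.le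
        _ = (C1 * L ^ c1) * a := by ring
        _ ≤ T * a := mul_le_mul_of_nonneg_right t1 hap0
    -- `δ` and `q`
    obtain ⟨δ, hδ⟩ : ∃ δ : ℝ, δ = min 1 (((b : ℝ) - a) / a) := ⟨_, rfl⟩
    have hd0 : 0 < δ := by rw [hδ]; exact lt_min one_pos (div_pos hba1 hap)
    have hd1 : δ ≤ 1 := by rw [hδ]; exact min_le_left _ _
    have hdd : δ ≤ ((b : ℝ) - a) / a := by rw [hδ]; exact min_le_right _ _
    have hab' : (1 + δ) * (a : ℝ) ≤ b := by
      rw [le_div_iff₀ hap] at hdd
      linarith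
    have hdb : (b : ℝ) - a ≤ δ * b := by
      rcases le_total 1 (((b : ℝ) - a) / a) with h | h
      · rw [hδ, min_eq_left h]
        linarith
      · rw [hδ, min_eq_right h, div_mul_eq_mul_div, le_div_iff₀ hap]
        exact mul_le_mul_of_nonneg_left habR hba0
    obtain ⟨q, hq⟩ : ∃ q : ℕ, q = ⌈1 / δ⌉₊ := ⟨_, rfl⟩
    have hq1 : 1 / δ ≤ q := by rw [hq]; exact Nat.le_ceil _
    have hq2 : (q : ℝ) ≤ 1 / δ + 1 := by
      rw [hq]
      exact (Nat.ceil_lt_add_one (by positivity)).le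
    have hqd1 : 1 ≤ q * δ := by rwa [div_le_iff₀ hd0] at hq1
    have hqd2 : q * δ ≤ 2 := by
      have h1 : (q : ℝ) * δ ≤ (1 / δ + 1) * δ := mul_le_mul_of_nonneg_right hq2 hd0.le
      have h2 : (1 / δ + 1) * δ = 1 + δ := by
        field_simp
      linarith
    have hqR : (1 : ℝ) ≤ q := by
      have h1 : (1 : ℝ) ≤ 1 / δ := by
        rw [le_div_iff₀ hd0]
        linarith
      linarith
    have hqN : 1 ≤ q := by exact_mod_cast hqR
    have hq0 : (0 : ℝ) ≤ q := by linarith
    -- `D_2` is large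
    have hz1 : C * l * q ≤ 2 * z := by
      have h1 : b * (C * l) ≤ b * (δ * z) := by
        have h3 : ((b : ℝ) - a) * z ≤ δ * b * z := mul_le_mul_of_nonneg_right hdb hz0.le
        linarith
      have h2 : C * l ≤ δ * z := le_of_mul_le_mul_left h1 hbp
      have h3 : C * l * q ≤ δ * z * q := mul_le_mul_of_nonneg_right h2 hq0
      have h4 : q * δ * z ≤ 2 * z := mul_le_mul_of_nonneg_right hqd2 hz0.le
      linarith
    obtain ⟨K, hK⟩ : ∃ K, K = 200 * q + 102 := ⟨_, rfl⟩
    have hKR : (((4 * K + 9 : ℕ)) : ℝ) ≤ 1217 * q := by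
      rw [hK]
      push_cast
      linarith
    have hz2 : ((4 * K + 9 : ℕ) : ℝ) * Real.log T ≤ z := by
      have h1 : 2434 * ((s : ℝ) + c4) ≤ C := by rw [hCd]; linarith
      have h2 : ((4 * K + 9 : ℕ) : ℝ) * Real.log T ≤ 1217 * q * (((s : ℝ) + c4) * l) :=
        mul_le_mul hKR hlT (by linarith) (by positivity)
      have h3 : 2434 * ((s : ℝ) + c4) * (l * q) ≤ C * (l * q) :=
        mul_le_mul_of_nonneg_right h1 (by positivity)
      linarith
    have hTD : T ^ (4 * K + 9) ≤ D / a := by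
      rw [← Real.log_le_log_iff (by positivity) hDa, Real.log_pow, ← hz]
      exact hz2
    have hTb : T ^ (4 * K + 9) ≤ T * a := hTD.trans (hDb.trans hba)
    have hTa : T ^ (4 * K + 8) ≤ (a : ℝ) := by
      have h1 : T * T ^ (4 * K + 8) ≤ T * a := by
        refine le_trans (le_of_eq ?_) hTb
        rw [← pow_succ']
      exact le_of_mul_le_mul_left h1 hT0
    have hDT : T ^ (4 * K + 3) * a ≤ (dn mu 2 : ℝ) := by
      rw [← hD]
      have h1 : T ^ (4 * K + 9) * a ≤ D := by rwa [le_div_iff₀ hap] at hTD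
      exact (mul_le_mul_of_nonneg_right (hTp _ _ (by omega)) hap0).trans h1
    -- `q` is small
    have hqL : 800 * (q : ℝ) ≤ L := by
      have h1 := Real.log_le_log (by positivity) hTa
      rw [Real.log_pow] at h1
      have h2 : (800 * (q : ℝ)) * 1 ≤ ((4 * K + 8 : ℕ) : ℝ) * Real.log T := by
        apply mul_le_mul _ hlT1 (by norm_num) (by positivity)
        rw [hK]
        push_cast
        linarith
      rw [hLd]
      linarith
    have hLT : L ≤ T := by
      have h1 := hT1c 1 1 (by norm_num) (by linarith) (by omega)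
      rwa [one_mul, pow_one] at h1
    have haT : T ≤ a := by
      calc T = T ^ 1 := (pow_one T).symm
        _ ≤ T ^ (4 * K + 8) := hTp _ _ (by omega)
        _ ≤ a := hTa
    have ha17 : 17 ≤ a := by
      have : (17 : ℝ) ≤ a := hT17.trans haT
      exact_mod_cast this
    have hdn0 : (0 : ℝ) ≤ dn mu 1 := Nat.cast_nonneg _
    by_cases q2 : T * (dn mu 1 : ℝ) ≤ (b : ℝ) ^ 2
    · -- `UniY`
      have h3 : (b : ℝ) ≤ (dn mu 2 : ℝ) := by
        refine hba.trans (le_trans ?_ hDT)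
        apply mul_le_mul_of_nonneg_right _ hap0
        calc T = T ^ 1 := (pow_one T).symm
          _ ≤ _ := hTp _ _ (by omega)
      have h4 : C2 * (1 + Real.log a) ^ c2 * (dn mu 1 : ℝ) ≤ (b : ℝ) ^ 2 := by
        rw [← hLd]
        exact (mul_le_mul_of_nonneg_right t2 hdn0).trans q2
      refine hY a b hab a mu (Or.inr (Or.inr (Or.inr ⟨h4, h4.trans ?_⟩)))
      exact pow_le_pow_left₀ hbp.le h3 2
    rw [not_le] at q2
    by_cases q3 : ∑ i, ((min b (mu i) : ℕ) : ℝ) ≤ T * b
    · -- the cores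
      obtain ⟨X, hX⟩ : ∃ X : ℕ, X = ⌈16 * T ^ 3⌉₊ := ⟨_, rfl⟩
      have hXl : 16 * T ^ 3 ≤ X := by rw [hX]; exact Nat.le_ceil _
      have hT3 : T ≤ T ^ 3 := by
        calc T = T ^ 1 := (pow_one T).symm
          _ ≤ T ^ 3 := hTp _ _ (by norm_num)
      have hXu : (X : ℝ) ≤ T ^ 4 := by
        have h3 : (X : ℝ) < 16 * T ^ 3 + 1 := by
          rw [hX]; exact Nat.ceil_lt_add_one (by positivity)
        have h4 : 17 * T ^ 3 ≤ T * T ^ 3 := mul_le_mul_of_nonneg_right hT17 (by positivity)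
        have h5 : T * T ^ 3 = T ^ 4 := by ring
        linarith
      have hTX : T ≤ X := by linarith
      have hX0 : (0 : ℝ) ≤ X := Nat.cast_nonneg _
      have hX1N : 1 ≤ X := by
        have : (1 : ℝ) ≤ X := hT1.trans hTX
        exact_mod_cast this
      have hX100 : 100 ≤ X := by
        have : (100 : ℝ) ≤ X := by linarith
        exact_mod_cast this
      have hXa : a₁ ≤ X := by
        have : (a₁ : ℝ) ≤ X := by linarith
        exact_mod_cast this
      have hXd : 100 / δ ≤ X := by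
        have h1 : 100 / δ = 100 * (1 / δ) := by ring
        rw [h1]
        linarith
      have hXq : 2 * q ≤ X := by
        have : (2 : ℝ) * q ≤ X := by linarith
        exact_mod_cast this
      have hXK : X ^ K ≤ a := by
        have h3 : (X : ℝ) ^ K ≤ a := by
          calc (X : ℝ) ^ K ≤ (T ^ 4) ^ K := pow_le_pow_left₀ hX0 hXu K
            _ = T ^ (4 * K) := by rw [← pow_mul]
            _ ≤ T ^ (4 * K + 8) := hTp _ _ (by omega)
            _ ≤ a := hTa
        exact_mod_cast h3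
      have hbX : b ≤ X * a := by
        have : (b : ℝ) ≤ X * a := hba.trans (mul_le_mul_of_nonneg_right hTX hap0)
        exact_mod_cast this
      have hKd : 68 / δ + 102 ≤ (K : ℝ) := by
        rw [hK]
        push_cast
        have h1 : 68 / δ = 68 * (1 / δ) := by ring
        rw [h1]
        linarith
      obtain ⟨m, hm3, hmX, hmn, hm⟩ :=
        pick (K := K) hanti hT17 hTa hab hba hXl hXu q3 q2.le hDT
      refine cores (δ' := δ) (K := K) (K1 := K) (K2 := K) (X1 := X) (X2 := X) ?_ ?_ hanti hsum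
        (by omega) hab' hbX hX1N le_rfl le_rfl le_rfl le_rfl hXK hm3 hmX hmn hm
      · intro a' b' X' m' n' lam' g1 g2 g3 g4 g5 g6 g7 g8 g9 g10 g11 g12
        have gd : 100 / δ ≤ (X' : ℝ) := hXd.trans (by exact_mod_cast g1)
        exact hC δ K a' b' X' m' n' lam' hd0 hd1 hKd (hX100.trans g1) gd g2 g3 g4 g5 g6 g7 g8 g9
          g10 g11 g12
      · intro a' b' X' m' n' lam' g1 g2 g3 g4 g5 g6 g7 g8 g9 g10 g11
        have gX1 : 1 ≤ X' := hX1N.trans g1
        have gq : (q + 1) * a' ≤ q * b' := by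
          have e1 : (q : ℝ) * ((1 + δ) * a') ≤ q * b' := mul_le_mul_of_nonneg_left g6 hq0
          have e2 : 1 * (a' : ℝ) ≤ q * δ * a' :=
            mul_le_mul_of_nonneg_right hqd1 (Nat.cast_nonneg _)
          have e3 : ((q : ℝ) + 1) * a' ≤ q * b' := by linarith
          exact_mod_cast e3
        have gK : X' ^ (200 * q) ≤ a' := by
          refine le_trans (Nat.pow_le_pow_right gX1 ?_) g2
          omega
        have ga : a₁ ≤ a' := by
          have e1 : X' ≤ X' ^ K := Nat.le_self_pow (by omega) X'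
          exact ((hXa.trans g1).trans e1).trans g2
        refine hA q a' b' X' m' n' lam' hqN ga g3 g4 g5 (hXq.trans g1) gK gq g7 g8 g10 ?_ g11
        calc m' ≤ X' := g9
          _ ≤ X' ^ 2 := Nat.le_self_pow (by norm_num) X'
    · -- `FatLog`
      rw [not_le] at q3
      apply hF a b a mu hab
      have h3 : C3 * L ^ c3 * (1 + δ) ≤ T * δ := by
        have h4 : C3 * L ^ c3 * 2 ≤ C3 * L ^ c3 * (L * δ) := by
          apply mul_le_mul_of_nonneg_left _ (by positivity)
          have h5 : 800 * (q : ℝ) * δ ≤ L * δ := mul_le_mul_of_nonneg_right hqL hd0.le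
          linarith
        have h6 : C3 * L ^ c3 * (1 + δ) ≤ C3 * L ^ c3 * 2 :=
          mul_le_mul_of_nonneg_left (by linarith) (by positivity)
        have h7 : C3 * L ^ (c3 + 1) * δ ≤ T * δ := mul_le_mul_of_nonneg_right t3 hd0.le
        have h8 : C3 * L ^ c3 * (L * δ) = C3 * L ^ (c3 + 1) * δ := by ring
        linarith
      rw [← hLd]
      exact fat hd0 hT0.le hab' hbp.le h3 q3.le
  refine T7.all_n_cells H530.pad_stmt H530.zero_stmt
    (fun f => C * b * l ≤ ((b : ℝ) - a) * Real.log ((f 2 : ℝ) / a))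
    ?_ n lam ?_
  · intro mu hanti hsum hQ
    refine key mu hanti hsum ?_
    have hQ' : C * b * l ≤ ((b : ℝ) - a) * Real.log (((T7.below 2 mu : ℕ) : ℝ) / a) := hQ
    rw [T7.below_cells] at hQ'
    exact hQ'
  · exact hlam

end Vale.Agent.P181.RH.H233
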